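import Vale.Agent.H40.KTV.LocOf
import Vale.Agent.H36.KTV.RptRow
import Vale.Agent.H59.KTV.LocAux
import Vale.Agent.H89.KTV.SqNoncrit

/-!
The local inequality of the simple-graph proof, with no hypothesis left.
-/

namespace Vale.Agent.H40.KTV

open Finset SimpleGraph
open scoped Classical
open Vale.Agent.H90 (dot avgRel)

variable {V : Type} [Fintype V]

/-- **Local inequality (row R1).** For two disjoint vertex pairs `{u, v}`, `{w, z}`: the
product of the two pair projections dominates the switch term of the block minus the two
correction terms. -/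
theorem loc (u v w z : V) (h : Dist4 u v w z) (f : SimpleGraph V → ℝ) :
    (1 / 2 : ℝ) * DT u v w z f - XT u v w z f - XT w z u v f
      ≤ 2 * dot (QP u v f) (QP w z f) :=
  loc_of Vale.Agent.H36.rpt_equiv Vale.Agent.H36.rpt_frozen Vale.Agent.H36.rpt_inter
    Vale.Agent.H59.centre_avg Vale.Agent.H59.sym_avg Vale.Agent.H89.sq_noncrit u v w z h f

end Vale.Agent.H40.KTV
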