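import Vale.Agent.H40.KTV.Loc
import Vale.Agent.H7.KTV.JS
import Vale.Agent.H27.KTV.Tri
import Vale.Agent.H55.KTV.R5a
import Vale.Agent.H89.KTV.GraphPoincare

/-!
The Poincare inequality with constant `2` for the switch graph of every degree
function, and the resulting mixing bound for the lazy switch chain.
-/

namespace Vale.Agent.H40.KTV

open Finset SimpleGraph
open scoped Classical
open Vale.Agent.H90 (dot avgRel)
open Vale.Agent.H12.Switch (Omega lapΩ IsSwitch kernel)

variable {V : Type} [Fintype V]

/-- **Poincare inequality for the switch graph, all degree functions.** -/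
theorem graph_poincare (d : V → ℕ) (f : Omega d → ℝ) (hf : ∑ G, f G = 0) :
    2 * ∑ G, f G ^ 2 ≤ ∑ G, f G * lapΩ d f G :=
  Vale.Agent.H89.graph_poincare_of Vale.Agent.H27.tri
    (Vale.Agent.H55.dp_of loc Vale.Agent.H7.js) (Vale.Agent.H55.k_le_l_of Vale.Agent.H7.js) d f hf

/-- **Mixing of the switch chain, all degree functions**: total variation distance at most
`1/4` after at most `n^6` steps. -/
theorem switch_mixing (n : ℕ) (hn : 4 ≤ n) (d : Fin n → ℕ) :
    ∃ t ≤ n ^ 6, ∀ G : Omega d,
      (1 / 2 : ℝ) * ∑ G', |(kernel d ^ t) G G' - 1 / (Fintype.card (Omega d) : ℝ)| ≤ 1 / 4 :=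
  Vale.Agent.H12.Switch.mixing_of_poincare n hn d (graph_poincare d)

end Vale.Agent.H40.KTV
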